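import Vale.Agent.P235.Truncate

/-!
Bourgain's embedding relative to a set of terminals: it is `O(log k)`-Lipschitz and expands every
pair whose two points are close to the terminals compared with their distance.
-/

namespace Vale.Agent.P235

open Finset

theorem sum_cutProb_miss {ι : Type*} [Fintype ι] [DecidableEq ι] (A : Finset ι) (p : ℝ) :
    ∑ Q : ι → Bool, (if ∀ c ∈ A, Q c = false then cutProb (fun _ => p) Q else 0) =
      (1 - p) ^ A.card := by
  have key : ∀ Q : ι → Bool, (if ∀ c ∈ A, Q c = false then cutProb (fun _ => p) Q else 0) =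
      ∏ c, if c ∈ A ∧ Q c = true then 0 else if Q c then p else 1 - p := by
    intro Q
    split_ifs with h
    · refine Finset.prod_congr rfl fun c _ => ?_
      by_cases hc : c ∈ A
      · simp [h c hc]
      · simp [hc]
    · push Not at h
      obtain ⟨c, hc, hQ⟩ := h
      exact (Finset.prod_eq_zero (Finset.mem_univ c) (by simp [hc, hQ])).symm
  rw [Finset.sum_congr rfl fun Q _ => key Q,
    ← Fintype.prod_sum (fun c (b : Bool) => if c ∈ A ∧ b = true then 0 else if b then p else 1 - p)]
  simp only [Fintype.sum_bool]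
  rw [← Finset.prod_subset (Finset.subset_univ A)]
  · rw [← Finset.prod_const]
    exact Finset.prod_congr rfl fun c hc => by simp [hc]
  · intro c _ hc; simp [hc]

theorem one_sub_pow_mul_le {p : ℝ} (h0 : 0 ≤ p) (h1 : p ≤ 1) (n : ℕ) :
    (1 - p) ^ n * (1 + n * p) ≤ 1 := by
  induction n with
  | zero => simp
  | succ n ih =>
    have : (1 - p) * (1 + (n + 1) * p) ≤ 1 + n * p := by
      have : 0 ≤ ((n:ℝ) + 1) * p * p := by positivity
      nlinarith
    push_cast
    rw [pow_succ, mul_assoc]
    exact (mul_le_mul_of_nonneg_left this (pow_nonneg (by linarith) n)).trans ih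

theorem one_sub_half_pow (t : ℕ) : (1 / 4 : ℝ) ≤ (1 - 1 / 2 ^ (t + 1)) ^ 2 ^ (t + 1) := by
  induction t with
  | zero => norm_num
  | succ t ih =>
    refine ih.trans ?_
    rw [show (2:ℕ) ^ (t + 1 + 1) = 2 * 2 ^ (t + 1) by ring, pow_mul]
    have hq : (1:ℝ) ≤ 2 ^ (t + 1) := one_le_pow₀ (by norm_num)
    refine pow_le_pow_left₀ ?_ ?_ _
    · rw [sub_nonneg, div_le_one (by positivity)]; exact hq
    · rw [show (1:ℝ) / 2 ^ (t + 1 + 1) = (1 / 2 ^ (t + 1)) / 2 by rw [pow_succ _ (t + 1)]; ring]
      nlinarith [sq_nonneg ((1:ℝ) / 2 ^ (t + 1))]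

variable {V : Type*}

/-- Distance to the random subset of the terminals. -/
noncomputable def subsetDist (d : V → V → ℝ) {X : Finset V} (Q : {x // x ∈ X} → Bool)
    (u : V) : ℝ :=
  if h : (univ.filter fun x => Q x = true).Nonempty then
    (univ.filter fun x => Q x = true).inf' h fun x => d u x
  else 0

/-- The gain of one level of the embedding, at the radii `lo < hi`. -/
theorem level_gain [DecidableEq V] (d : V → V → ℝ) (X : Finset V) (t : ℕ) {u v : V} {lo hi : ℝ}
    (hlh : lo ≤ hi) (hdisj : ∀ x : {x // x ∈ X}, d u x < hi → d v x ≤ lo → False)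
    (hA : (univ.filter fun x : {x // x ∈ X} => d u x < hi).card < 2 ^ (t + 1))
    (hB : 2 ^ t ≤ (univ.filter fun x : {x // x ∈ X} => d v x ≤ lo).card) :
    1 / 12 * (hi - lo) ≤ ∑ Q : {x // x ∈ X} → Bool,
      cutProb (fun _ => (1:ℝ) / 2 ^ (t + 1)) Q * |subsetDist d Q u - subsetDist d Q v| := by
  classical
  set A := univ.filter fun x : {x // x ∈ X} => d u x < hi with hAdef
  set B := univ.filter fun x : {x // x ∈ X} => d v x ≤ lo with hBdef
  set p : ℝ := 1 / 2 ^ (t + 1) with hp
  have hp0 : 0 ≤ p := by positivity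
  have hp1 : p ≤ 1 := by
    rw [hp, div_le_one (by positivity)]; exact one_le_pow₀ (by norm_num)
  have hev : ∀ Q : {x // x ∈ X} → Bool,
      (hi - lo) * ((if ∀ c ∈ A, Q c = false then cutProb (fun _ => p) Q else 0) -
        (if ∀ c ∈ A ∪ B, Q c = false then cutProb (fun _ => p) Q else 0)) ≤
      cutProb (fun _ => p) Q * |subsetDist d Q u - subsetDist d Q v| := by
    intro Q
    have hc := cutProb_nonneg (π := fun _ : {x // x ∈ X} => p) (fun _ => hp0) (fun _ => hp1) Q
    by_cases hAQ : ∀ c ∈ A, Q c = false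
    · rw [if_pos hAQ]
      by_cases hBQ : ∀ c ∈ A ∪ B, Q c = false
      · rw [if_pos hBQ, sub_self, mul_zero]; positivity
      rw [if_neg hBQ, sub_zero, mul_comm]
      refine mul_le_mul_of_nonneg_left ?_ hc
      push Not at hBQ
      obtain ⟨c, hcAB, hcQ⟩ := hBQ
      have hcB : c ∈ B := (Finset.mem_union.1 hcAB).resolve_left fun h => hcQ (hAQ c h)
      have hcT : c ∈ univ.filter fun x => Q x = true := by simpa using hcQ
      have hv : subsetDist d Q v ≤ lo := by
        rw [subsetDist, dif_pos ⟨c, hcT⟩]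
        exact (Finset.inf'_le _ hcT).trans (by simpa [hBdef] using hcB)
      have hu : hi ≤ subsetDist d Q u := by
        rw [subsetDist, dif_pos ⟨c, hcT⟩]
        refine Finset.le_inf' _ _ fun x hx => ?_
        by_contra hlt
        have := hAQ x (by simpa [hAdef] using not_le.1 hlt)
        simp [this] at hx
      exact le_trans (by linarith) (le_abs_self _)
    · have hAB : ¬ ∀ c ∈ A ∪ B, Q c = false :=
        fun h => hAQ fun c hc => h c (Finset.mem_union_left _ hc)
      rw [if_neg hAQ, if_neg hAB, sub_zero, mul_zero]; positivity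
  refine le_trans ?_ (Finset.sum_le_sum fun Q _ => hev Q)
  rw [← Finset.mul_sum, Finset.sum_sub_distrib, sum_cutProb_miss, sum_cutProb_miss,
    Finset.card_union_of_disjoint, mul_comm (1 / 12 : ℝ)]
  · refine mul_le_mul_of_nonneg_left ?_ (by linarith)
    have h1 : (1 / 4 : ℝ) ≤ (1 - p) ^ A.card :=
      (one_sub_half_pow t).trans (pow_le_pow_of_le_one (by linarith) (by linarith) hA.le)
    have h2 := one_sub_pow_mul_le hp0 hp1 B.card
    have h3 : (1 / 2 : ℝ) ≤ B.card * p := by
      have : ((2 ^ t : ℕ) : ℝ) ≤ B.card := by exact_mod_cast hB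
      push_cast at this
      rw [hp, mul_one_div, le_div_iff₀ (by positivity), pow_succ]; linarith
    have h4 : 0 ≤ (1 - p) ^ B.card := pow_nonneg (by linarith) _
    have h5 : (1 - p) ^ B.card ≤ 2 / 3 := by nlinarith
    rw [pow_add]; nlinarith
  · rw [Finset.disjoint_left]
    intro x hxA hxB
    exact hdisj x (by simpa [hAdef] using hxA) (by simpa [hBdef] using hxB)

/-- Bourgain's embedding relative to the terminals `X`. -/
theorem exists_terminal_embedding [Fintype V] [DecidableEq V] (d : V → V → ℝ)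
    (hd0 : ∀ u v, 0 ≤ d u v) (hcomm : ∀ u v, d u v = d v u)
    (htri : ∀ u v x, d u v ≤ d u x + d x v) (X : Finset V) :
    ∃ f : V → (Fin (Nat.log 2 X.card + 1) × ({x // x ∈ X} → Bool)) → ℝ, ∀ u v,
      (∑ c, |f u c - f v c| ≤ 32 * (Nat.log 2 X.card + 1) * d u v) ∧
      ((∃ x ∈ X, d u x ≤ d u v / 8) → (∃ x ∈ X, d v x ≤ d u v / 8) →
        d u v ≤ ∑ c, |f u c - f v c|) := by
  classical
  let p : ℕ → ℝ := fun t => (1:ℝ) / 2 ^ (t + 1)
  have hP : ∀ t (Q : {x // x ∈ X} → Bool), 0 ≤ cutProb (fun _ => p t) Q := fun t Q =>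
    cutProb_nonneg (fun _ => by positivity)
      (fun _ => by simp only [p]; rw [div_le_one (by positivity)]; exact one_le_pow₀ (by norm_num)) Q
  refine ⟨fun u c => 32 * (cutProb (fun _ => p c.1) c.2 * subsetDist d c.2 u), fun u v => ?_⟩
  set n := Nat.log 2 X.card + 1 with hn
  set R := d u v with hR
  have hsum : ∑ c : Fin n × ({x // x ∈ X} → Bool),
      |32 * (cutProb (fun _ => p c.1) c.2 * subsetDist d c.2 u) -
        32 * (cutProb (fun _ => p c.1) c.2 * subsetDist d c.2 v)| =
      32 * ∑ t : Fin n, ∑ Q : {x // x ∈ X} → Bool,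
        cutProb (fun _ => p t) Q * |subsetDist d Q u - subsetDist d Q v| := by
    rw [Fintype.sum_prod_type, Finset.mul_sum]
    refine Finset.sum_congr rfl fun t _ => ?_
    rw [Finset.mul_sum]
    refine Finset.sum_congr rfl fun Q _ => ?_
    rw [← mul_sub, ← mul_sub, abs_mul, abs_mul, abs_of_nonneg (hP t Q)]; norm_num
  refine ⟨?_, fun hu hv => ?_⟩
  · rw [hsum]
    have hlip : ∀ Q : {x // x ∈ X} → Bool, |subsetDist d Q u - subsetDist d Q v| ≤ R := by
      intro Q
      simp only [subsetDist]
      split_ifs with h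
      · obtain ⟨a, ha, ea⟩ := Finset.exists_mem_eq_inf' h fun x : {x // x ∈ X} => d u x
        obtain ⟨b, hb, eb⟩ := Finset.exists_mem_eq_inf' h fun x : {x // x ∈ X} => d v x
        have h1 := Finset.inf'_le (fun x : {x // x ∈ X} => d u x) hb
        have h2 := Finset.inf'_le (fun x : {x // x ∈ X} => d v x) ha
        rw [ea] at h1; rw [eb] at h2
        rw [ea, eb, abs_sub_le_iff]
        have := htri u b v
        have := htri v a u
        have := hcomm u v
        constructor <;> linarith
      · simpa using hd0 u v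
    have : ∀ t : Fin n, ∑ Q : {x // x ∈ X} → Bool,
        cutProb (fun _ => p t) Q * |subsetDist d Q u - subsetDist d Q v| ≤ R := fun t =>
      (Finset.sum_le_sum fun Q _ => mul_le_mul_of_nonneg_left (hlip Q) (hP t Q)).trans
        (le_of_eq (by rw [← Finset.sum_mul, sum_cutProb, one_mul]))
    have hcard := Finset.sum_le_card_nsmul univ _ R fun t _ => this t
    rw [Finset.card_univ, Fintype.card_fin, nsmul_eq_mul, hn] at hcard
    push_cast at hcard
    rw [mul_assoc]
    exact mul_le_mul_of_nonneg_left hcard (by norm_num)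
  · rw [hsum]
    let D : Finset ℝ :=
      (univ.image fun x : {x // x ∈ X} => d u x) ∪ (univ.image fun x : {x // x ∈ X} => d v x)
    let cl : V → ℝ → Finset {x // x ∈ X} := fun a s => univ.filter fun x => d a x ≤ s
    let op : V → ℝ → Finset {x // x ∈ X} := fun a s => univ.filter fun x => d a x < s
    let good : ℕ → Finset ℝ := fun t =>
      insert (R / 2) (D.filter fun s => 2 ^ t ≤ (cl u s).card ∧ 2 ^ t ≤ (cl v s).card)
    let r : ℕ → ℝ := fun t => (good t).min' (Finset.insert_nonempty _ _)
    have rle : ∀ t, r t ≤ R / 2 := fun t => Finset.min'_le _ _ (Finset.mem_insert_self _ _)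
    have rmono : ∀ t, r t ≤ r (t + 1) := fun t => by
      refine Finset.min'_subset _ (Finset.insert_subset_insert _ fun s hs => ?_)
      rw [Finset.mem_filter] at hs ⊢
      have : 2 ^ t ≤ 2 ^ (t + 1) := Nat.pow_le_pow_right two_pos (Nat.le_succ t)
      exact ⟨hs.1, this.trans hs.2.1, this.trans hs.2.2⟩
    have rclosed : ∀ t, r t < R / 2 → 2 ^ t ≤ (cl u (r t)).card ∧ 2 ^ t ≤ (cl v (r t)).card := by
      intro t ht
      rcases Finset.mem_insert.1 (Finset.min'_mem (good t) (Finset.insert_nonempty _ _)) with h | h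
      · exact absurd h ht.ne
      · exact (Finset.mem_filter.1 h).2
    have ropen : ∀ t, (op u (r t)).card < 2 ^ t ∨ (op v (r t)).card < 2 ^ t := by
      intro t
      by_contra hc
      push Not at hc
      let M : Finset ℝ := (op u (r t)).image (fun x => d u x.1) ∪ (op v (r t)).image (fun x => d v x.1)
      have hne : M.Nonempty := by
        obtain ⟨x, hx⟩ := Finset.card_pos.1 (lt_of_lt_of_le (Nat.two_pow_pos t) hc.1)
        exact ⟨_, Finset.mem_union_left _ (Finset.mem_image_of_mem _ hx)⟩
      set s := M.max' hne with hs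
      have hsM : s ∈ M := Finset.max'_mem _ _
      have hslt : s < r t := by
        rcases Finset.mem_union.1 hsM with h | h <;>
          obtain ⟨x, hx, e⟩ := Finset.mem_image.1 h <;>
          rw [← e] <;> exact (Finset.mem_filter.1 hx).2
      have hsD : s ∈ D := by
        rcases Finset.mem_union.1 hsM with h | h <;> obtain ⟨x, _, e⟩ := Finset.mem_image.1 h
        · exact Finset.mem_union_left _ (e ▸ Finset.mem_image_of_mem _ (Finset.mem_univ x))
        · exact Finset.mem_union_right _ (e ▸ Finset.mem_image_of_mem _ (Finset.mem_univ x))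
      have hu' : (op u (r t)).card ≤ (cl u s).card := Finset.card_le_card fun x hx =>
        Finset.mem_filter.2 ⟨Finset.mem_univ _, Finset.le_max' M _
          (Finset.mem_union_left _ (Finset.mem_image_of_mem _ hx))⟩
      have hv' : (op v (r t)).card ≤ (cl v s).card := Finset.card_le_card fun x hx =>
        Finset.mem_filter.2 ⟨Finset.mem_univ _, Finset.le_max' M _
          (Finset.mem_union_right _ (Finset.mem_image_of_mem _ hx))⟩
      have : r t ≤ s := Finset.min'_le _ _ (Finset.mem_insert_of_mem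
        (Finset.mem_filter.2 ⟨hsD, hc.1.trans hu', hc.2.trans hv'⟩))
      linarith
    have hstep : ∀ t : ℕ, 1 / 12 * (r (t + 1) - r t) ≤ ∑ Q : {x // x ∈ X} → Bool,
        cutProb (fun _ => p t) Q * |subsetDist d Q u - subsetDist d Q v| := by
      intro t
      rcases (rmono t).eq_or_lt with h | h
      · rw [h, sub_self, mul_zero]
        exact Finset.sum_nonneg fun Q _ => mul_nonneg (hP t Q) (abs_nonneg _)
      have hlt : r t < R / 2 := h.trans_le (rle _)
      have hdis : ∀ (a b : V), d a b = R → ∀ x : {x // x ∈ X},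
          d a x < r (t + 1) → d b x ≤ r t → False := fun a b hab x hax hbx => by
        have h1 := htri a b x
        rw [hcomm x b] at h1
        linarith [rle (t + 1)]
      rcases ropen (t + 1) with ho | ho
      · exact level_gain d X t h.le (hdis u v rfl) ho (rclosed t hlt).2
      · refine (level_gain d X t h.le (hdis v u (hcomm v u)) ho (rclosed t hlt).1).trans
          (le_of_eq (Finset.sum_congr rfl fun Q _ => by rw [abs_sub_comm]))
    have htel : ∑ t : Fin n, 1 / 12 * (r (t + 1) - r t) = 1 / 12 * (r n - r 0) := by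
      rw [← Finset.mul_sum, Fin.sum_univ_eq_sum_range (fun t => r (t + 1) - r t) n,
        Finset.sum_range_sub]
    have hend : R / 2 ≤ r n := by
      by_contra hc
      have h1 := (rclosed n (not_le.1 hc)).1
      have h2 : (cl u (r n)).card ≤ X.card :=
        (Finset.card_le_univ _).trans (le_of_eq (Fintype.card_coe X))
      have h3 : X.card < 2 ^ n := Nat.lt_pow_succ_log_self one_lt_two _
      omega
    have hstart : r 0 ≤ R / 8 := by
      obtain ⟨x, hx, hxu⟩ := hu
      obtain ⟨y, hy, hyv⟩ := hv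
      have key : ∀ s ∈ D, d u x ≤ s → d v y ≤ s → r 0 ≤ s := fun s hsD h1 h2 => by
        refine Finset.min'_le _ _ (Finset.mem_insert_of_mem (Finset.mem_filter.2 ⟨hsD, ?_, ?_⟩))
        · rw [pow_zero]; exact Finset.card_pos.2 ⟨⟨x, hx⟩, by simp [cl, h1]⟩
        · rw [pow_zero]; exact Finset.card_pos.2 ⟨⟨y, hy⟩, by simp [cl, h2]⟩
      rcases le_total (d u x) (d v y) with h | h
      · exact (key _ (Finset.mem_union_right _
          (Finset.mem_image.2 ⟨⟨y, hy⟩, Finset.mem_univ _, rfl⟩)) h le_rfl).trans hyv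
      · exact (key _ (Finset.mem_union_left _
          (Finset.mem_image.2 ⟨⟨x, hx⟩, Finset.mem_univ _, rfl⟩)) le_rfl h).trans hxu
    have := Finset.sum_le_sum fun (t : Fin n) (_ : t ∈ univ) => hstep t
    rw [htel] at this
    linarith

end Vale.Agent.P235
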