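import Vale.Agent.P235.Truncate
import Vale.Agent.P235.Terminal

/-!
Adding `k` vertices adds `O(log k)` to a multiple of the `ℓ¹` distortion of a graph metric.
-/

namespace Vale.Agent.P235

open Finset

variable {V : Type*}

/-- The shortest-path metric of `G` with edge lengths `ℓ`. -/
noncomputable def pathDist (G : SimpleGraph V) (ℓ : Sym2 V → ℝ) (u v : V) : ℝ :=
  ⨅ w : G.Walk u v, (w.edges.map ℓ).sum

section PathDist

variable {G : SimpleGraph V} {ℓ : Sym2 V → ℝ}

theorem walk_sum_nonneg (hℓ : ∀ e ∈ G.edgeSet, 0 < ℓ e) {u v : V} (w : G.Walk u v) :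
    0 ≤ (w.edges.map ℓ).sum := by
  refine List.sum_nonneg fun x hx => ?_
  obtain ⟨e, he, rfl⟩ := List.mem_map.1 hx
  exact (hℓ e (w.edges_subset_edgeSet he)).le

theorem pathDist_le (hℓ : ∀ e ∈ G.edgeSet, 0 < ℓ e) {u v : V} (w : G.Walk u v) :
    pathDist G ℓ u v ≤ (w.edges.map ℓ).sum :=
  ciInf_le ⟨0, by rintro _ ⟨w', rfl⟩; exact walk_sum_nonneg hℓ w'⟩ w

theorem pathDist_nonneg (hℓ : ∀ e ∈ G.edgeSet, 0 < ℓ e) (u v : V) : 0 ≤ pathDist G ℓ u v :=
  Real.iInf_nonneg fun w => walk_sum_nonneg hℓ w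

theorem pathDist_self (hℓ : ∀ e ∈ G.edgeSet, 0 < ℓ e) (u : V) : pathDist G ℓ u u = 0 :=
  le_antisymm (by simpa using pathDist_le hℓ (SimpleGraph.Walk.nil : G.Walk u u))
    (pathDist_nonneg hℓ u u)

theorem pathDist_adj (hℓ : ∀ e ∈ G.edgeSet, 0 < ℓ e) {u v : V} (h : G.Adj u v) :
    pathDist G ℓ u v ≤ ℓ s(u, v) := by
  simpa using pathDist_le hℓ (SimpleGraph.Walk.cons h SimpleGraph.Walk.nil)

theorem pathDist_comm (hG : G.Connected) (hℓ : ∀ e ∈ G.edgeSet, 0 < ℓ e) (u v : V) :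
    pathDist G ℓ u v = pathDist G ℓ v u := by
  have key : ∀ a b, pathDist G ℓ a b ≤ pathDist G ℓ b a := by
    intro a b
    haveI : Nonempty (G.Walk b a) := hG.preconnected b a
    refine le_ciInf fun w => (pathDist_le hℓ w.reverse).trans (le_of_eq ?_)
    rw [SimpleGraph.Walk.edges_reverse, List.map_reverse, List.sum_reverse]
  exact le_antisymm (key u v) (key v u)

theorem pathDist_triangle (hG : G.Connected) (hℓ : ∀ e ∈ G.edgeSet, 0 < ℓ e) (u v x : V) :
    pathDist G ℓ u v ≤ pathDist G ℓ u x + pathDist G ℓ x v := by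
  haveI : Nonempty (G.Walk u x) := hG.preconnected u x
  haveI : Nonempty (G.Walk x v) := hG.preconnected x v
  refine le_ciInf_add_ciInf fun p q => (pathDist_le hℓ (p.append q)).trans (le_of_eq ?_)
  rw [SimpleGraph.Walk.edges_append, List.map_append, List.sum_append]

/-- A bound on every edge is a bound for the metric. -/
theorem le_pathDist {α : Type*} [Fintype α] (hG : G.Connected) (f : V → α → ℝ) {K : ℝ}
    (hK : 0 ≤ K) (h : ∀ u v, G.Adj u v → ∑ i, |f u i - f v i| ≤ K * ℓ s(u, v)) (u v : V) :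
    ∑ i, |f u i - f v i| ≤ K * pathDist G ℓ u v := by
  haveI : Nonempty (G.Walk u v) := hG.preconnected u v
  rw [pathDist, Real.mul_iInf_of_nonneg hK]
  refine le_ciInf fun w => ?_
  induction w with
  | nil => simp
  | @cons a b c hab p ih =>
    have ih := ih (hG.preconnected b c)
    simp only [SimpleGraph.Walk.edges_cons, List.map_cons, List.sum_cons, mul_add]
    refine le_trans ?_ (add_le_add (h a b hab) (ih))
    rw [← Finset.sum_add_distrib]
    exact Finset.sum_le_sum fun i _ => abs_sub_le _ _ _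

end PathDist

/-- The plateau weight at scale `Δ`: `1` on `[Δ/2, 4Δ]`, `0` outside `(Δ/4, 8Δ)`. -/
noncomputable def plateau (Δ t : ℝ) : ℝ :=
  max 0 (min 1 (min ((t - Δ / 4) / (Δ / 4)) ((8 * Δ - t) / (4 * Δ))))

theorem plateau_eq_zero {Δ t : ℝ} (hΔ : 0 < Δ) (h : t ≤ Δ / 4 ∨ 8 * Δ ≤ t) : plateau Δ t = 0 := by
  refine max_eq_left ((min_le_right _ _).trans ?_)
  rcases h with h | h
  · exact (min_le_left _ _).trans (div_nonpos_of_nonpos_of_nonneg (by linarith) (by linarith))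
  · exact (min_le_right _ _).trans (div_nonpos_of_nonpos_of_nonneg (by linarith) (by linarith))

theorem plateau_eq_one {Δ t : ℝ} (hΔ : 0 < Δ) (h1 : Δ / 2 ≤ t) (h2 : t ≤ 4 * Δ) :
    plateau Δ t = 1 := by
  have e1 : 1 ≤ (t - Δ / 4) / (Δ / 4) := by rw [one_le_div (by linarith)]; linarith
  have e2 : 1 ≤ (8 * Δ - t) / (4 * Δ) := by rw [one_le_div (by linarith)]; linarith
  rw [plateau, min_eq_left (le_min e1 e2), max_eq_right zero_le_one]

theorem plateau_mem (Δ t : ℝ) : 0 ≤ plateau Δ t ∧ plateau Δ t ≤ 1 :=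
  ⟨le_max_left _ _, max_le zero_le_one (min_le_left _ _)⟩

theorem plateau_lip {Δ : ℝ} (hΔ : 0 < Δ) (s t : ℝ) :
    |plateau Δ s - plateau Δ t| * Δ ≤ 4 * |s - t| := by
  rw [← le_div_iff₀ hΔ]
  refine (abs_max_sub_max_le_max _ _ _ _).trans (max_le (by simp; positivity) ?_)
  refine (abs_min_sub_min_le_max _ _ _ _).trans (max_le (by simp; positivity) ?_)
  refine (abs_min_sub_min_le_max _ _ _ _).trans (max_le ?_ ?_)
  · rw [← sub_div, abs_div, abs_of_pos (by linarith : 0 < Δ / 4)]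
    refine le_of_eq ?_
    rw [show s - Δ / 4 - (t - Δ / 4) = s - t by ring]
    field_simp
  · rw [← sub_div, abs_div, abs_of_pos (by linarith : 0 < 4 * Δ),
      show 8 * Δ - s - (8 * Δ - t) = t - s by ring, abs_sub_comm,
      div_le_div_iff₀ (by linarith) hΔ]
    have := abs_nonneg (s - t)
    nlinarith

/-- The dyadic scales whose plateau does not vanish at `t`. -/
theorem plateau_support {t : ℝ} {j : ℤ} (h : plateau ((2:ℝ) ^ j) t ≠ 0) :
    j ∈ Finset.Icc (Int.log 2 t - 2) (Int.log 2 t + 2) := by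
  have hj : (0:ℝ) < (2:ℝ) ^ j := zpow_pos two_pos _
  have h1 : (2:ℝ) ^ j / 4 < t := by
    by_contra hc; exact h (plateau_eq_zero hj (Or.inl (not_lt.1 hc)))
  have h2 : t < 8 * (2:ℝ) ^ j := by
    by_contra hc; exact h (plateau_eq_zero hj (Or.inr (not_lt.1 hc)))
  have ht : 0 < t := lt_trans (by positivity) h1
  have l1 := Int.zpow_log_le_self (b := 2) (by norm_num) ht
  have l2 := Int.lt_zpow_succ_log_self (b := 2) (by norm_num) t
  push_cast at l1 l2
  have a : (2:ℝ) ^ (j - 2) < (2:ℝ) ^ (Int.log 2 t + 1) := by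
    rw [zpow_sub₀ two_ne_zero]; norm_num; linarith
  have b : (2:ℝ) ^ (Int.log 2 t) < (2:ℝ) ^ (j + 3) := by
    rw [zpow_add₀ two_ne_zero]; norm_num; linarith
  rw [zpow_lt_zpow_iff_right₀ one_lt_two] at a b
  rw [Finset.mem_Icc]; omega

theorem sum_abs_mul_sub_le {α : Type*} [Fintype α] (a b : ℝ) (x y : α → ℝ) :
    ∑ i, |a * x i - b * y i| ≤ |a - b| * (∑ i, |x i|) + |b| * ∑ i, |x i - y i| := by
  rw [Finset.mul_sum, Finset.mul_sum, ← Finset.sum_add_distrib]
  refine Finset.sum_le_sum fun i _ => ?_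
  rw [← abs_mul, ← abs_mul]
  refine le_trans (le_of_eq (congrArg abs ?_)) (abs_add_le _ _)
  ring

/-- On `U`, some map into `ℓ¹` is at most `C` times `ℓ` on every edge inside `U` and at least
the metric of the whole graph on every pair in `U`. -/
def Embeds (G : SimpleGraph V) (ℓ : Sym2 V → ℝ) (C : ℝ) (U : Finset V) : Prop :=
  ∃ (N : ℕ) (g : V → Fin N → ℝ),
    (∀ u ∈ U, ∀ v ∈ U, G.Adj u v → ∑ i, |g u i - g v i| ≤ C * ℓ s(u, v)) ∧
    ∀ u ∈ U, ∀ v ∈ U, pathDist G ℓ u v ≤ ∑ i, |g u i - g v i|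

variable [DecidableEq V]

/-- The core construction. -/
theorem exists_apex_embedding [Fintype V] (G : SimpleGraph V) (hG : G.Connected) {ℓ : Sym2 V → ℝ}
    (hℓ : ∀ e ∈ G.edgeSet, 0 < ℓ e) (X U : Finset V) (hX : X.Nonempty) {C : ℝ} (hC : 0 ≤ C)
    (hU : Embeds G ℓ C U) :
    Embeds G ℓ (32 * Nat.log 2 X.card + 440 * C + 944) (U ∪ X) := by
  obtain ⟨N, g, hup, hlow⟩ := hU
  classical
  set d := pathDist G ℓ with hd
  let φ : V → ℝ := fun u => X.inf' hX (fun x => d u x)
  have hφle : ∀ u, ∀ x ∈ X, φ u ≤ d u x := fun u x hx => Finset.inf'_le _ hx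
  have hφex : ∀ u, ∃ x ∈ X, φ u = d u x := fun u => Finset.exists_mem_eq_inf' hX _
  have hφ0 : ∀ x ∈ X, φ x = 0 := by
    intro x hx
    refine le_antisymm ((hφle x x hx).trans (le_of_eq (pathDist_self hℓ x))) ?_
    exact Finset.le_inf' _ _ fun y _ => pathDist_nonneg hℓ x y
  have hφlip : ∀ u v, |φ u - φ v| ≤ d u v := by
    have one : ∀ u v, φ u ≤ φ v + d u v := fun u v => by
      obtain ⟨x, hx, e⟩ := hφex v
      linarith [hφle u x hx, pathDist_triangle hG hℓ u x v]
    intro u v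
    rw [abs_sub_le_iff]
    have h := one v u
    rw [show d v u = d u v from pathDist_comm hG hℓ v u] at h
    exact ⟨by linarith [one u v], by linarith⟩
  let e := Fintype.equivFin V
  obtain ⟨S, w, hw, hSw⟩ := exists_cuts (fun a => g (e.symm a))
  set J : Finset ℤ := Finset.univ.image (fun u => Int.log 2 (φ u)) with hJ
  have hT := fun j : ℤ => exists_truncation S w hw (zpow_pos two_pos j : (0:ℝ) < (2:ℝ) ^ j)
  choose T hT using hT
  have ht : ∀ u v, (∑ c, if S (e u) c = S (e v) c then 0 else w c) = ∑ i, |g u i - g v i| := by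
    intro u v; rw [hSw]; simp
  let Q := Fin N × Fin (Fintype.card V) → Bool
  obtain ⟨B, hB⟩ := exists_terminal_embedding d (pathDist_nonneg hℓ) (pathDist_comm hG hℓ)
    (pathDist_triangle hG hℓ) X
  let P := Fin (Nat.log 2 X.card + 1) × ({x // x ∈ X} → Bool)
  let F : V → (P ⊕ Unit) ⊕ ({j // j ∈ J} × Q) → ℝ := fun u => Sum.elim
    (Sum.elim (B u) (fun _ => 32 * φ u))
    (fun c => 22 * (plateau ((2:ℝ) ^ (c.1:ℤ)) (φ u) * T c.1 (e u) c.2))
  let ε := Fintype.equivFin ((P ⊕ Unit) ⊕ ({j // j ∈ J} × Q))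
  have hre : ∀ u v, ∑ a, |F u (ε.symm a) - F v (ε.symm a)| = ∑ c, |F u c - F v c| :=
    fun u v => Fintype.sum_equiv ε.symm _ _ fun a => rfl
  have hsplit : ∀ u v, ∑ c, |F u c - F v c| = (∑ c, |B u c - B v c|) + 32 * |φ u - φ v| +
      22 * ∑ j : {j // j ∈ J}, ∑ q, |plateau ((2:ℝ) ^ (j:ℤ)) (φ u) * T j (e u) q -
        plateau ((2:ℝ) ^ (j:ℤ)) (φ v) * T j (e v) q| := by
    intro u v
    rw [Fintype.sum_sum_type, Fintype.sum_sum_type,
      Fintype.sum_prod_type (α₁ := {j // j ∈ J})]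
    simp only [F, Sum.elim_inl, Sum.elim_inr, ← mul_sub, abs_mul, ← Finset.mul_sum,
      Fintype.univ_ofSubsingleton, Finset.sum_singleton]
    norm_num
    rfl
  refine ⟨_, fun u a => F u (ε.symm a), fun u hu' v hv' huv => ?_, fun u hu' v hv' => ?_⟩
  · rw [hre, hsplit]
    set L := ℓ s(u, v) with hL
    have hL0 : 0 ≤ L := (hℓ _ huv).le
    have hdL : d u v ≤ L := pathDist_adj hℓ huv
    have hX1 : ∑ c, |B u c - B v c| ≤ 32 * ((Nat.log 2 X.card : ℝ) + 1) * L :=
      (hB u v).1.trans (mul_le_mul_of_nonneg_left hdL (by positivity))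
    have hX2 : |φ u - φ v| ≤ L := (hφlip u v).trans hdL
    have hterm : ∀ j : {j // j ∈ J}, ∑ q, |plateau ((2:ℝ) ^ (j:ℤ)) (φ u) * T j (e u) q -
        plateau ((2:ℝ) ^ (j:ℤ)) (φ v) * T j (e v) q| ≤ (4 + 2 * C) * L := by
      intro j
      set Δ := (2:ℝ) ^ (j:ℤ)
      have hΔ0 : 0 < Δ := zpow_pos two_pos _
      have hl := plateau_lip hΔ0 (φ u) (φ v)
      have hφd := (hφlip u v).trans hdL
      have hb : ∀ a, ∑ q, |T j (e a) q| ≤ Δ := fun a => (hT j (e a)).1
      have hps : ∀ a, |plateau Δ (φ a)| ≤ 1 := fun a => by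
        rw [abs_of_nonneg (plateau_mem _ _).1]; exact (plateau_mem _ _).2
      have hdiff : |plateau Δ (φ u) - plateau Δ (φ v)| * Δ ≤ 4 * L := by linarith
      have hCL : 0 ≤ 2 * C * L := by positivity
      have hzero : ∀ a ∈ X, plateau Δ (φ a) = 0 := fun a ha =>
        plateau_eq_zero hΔ0 (Or.inl (by rw [hφ0 a ha]; positivity))
      by_cases hu : u ∈ X
      · rw [Finset.sum_congr rfl fun q _ => abs_sub_comm _ _]
        refine (sum_abs_mul_sub_le _ _ _ _).trans ?_
        rw [hzero u hu, abs_zero, zero_mul, add_zero]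
        refine (mul_le_mul_of_nonneg_left (hb v) (abs_nonneg _)).trans ?_
        rw [← hzero u hu, abs_sub_comm]
        linarith
      refine (sum_abs_mul_sub_le _ _ _ _).trans ?_
      have h1 := (mul_le_mul_of_nonneg_left (hb u) (abs_nonneg _)).trans hdiff
      by_cases hv : v ∈ X
      · rw [hzero v hv] at h1 ⊢; rw [abs_zero, zero_mul]; linarith
      have h2 := ((hT j (e u)).2 (e v)).1
      rw [ht] at h2
      have h3 := (mul_le_of_le_one_left (by positivity) (hps v)).trans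
        (h2.trans (mul_le_mul_of_nonneg_left (hup u ((Finset.mem_union.1 hu').resolve_right hu) v
          ((Finset.mem_union.1 hv').resolve_right hv) huv) zero_le_two))
      linarith
    let A : Finset {j // j ∈ J} := Finset.univ.filter (fun j =>
      plateau ((2:ℝ) ^ (j:ℤ)) (φ u) ≠ 0 ∨ plateau ((2:ℝ) ^ (j:ℤ)) (φ v) ≠ 0)
    have hA : (A.card : ℝ) ≤ 10 := by
      have h1 : A.card ≤ (Finset.Icc (Int.log 2 (φ u) - 2) (Int.log 2 (φ u) + 2) ∪
          Finset.Icc (Int.log 2 (φ v) - 2) (Int.log 2 (φ v) + 2)).card := by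
        refine Finset.card_le_card_of_injOn (fun j => (j:ℤ)) (fun j hj => ?_)
          (fun a _ b _ h => Subtype.ext h)
        rcases (Finset.mem_filter.1 hj).2 with h | h
        · exact Finset.mem_union_left _ (plateau_support h)
        · exact Finset.mem_union_right _ (plateau_support h)
      have h2 := Finset.card_union_le (Finset.Icc (Int.log 2 (φ u) - 2) (Int.log 2 (φ u) + 2))
        (Finset.Icc (Int.log 2 (φ v) - 2) (Int.log 2 (φ v) + 2))
      simp only [Int.card_Icc] at h2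
      have : A.card ≤ 10 := by omega
      exact_mod_cast this
    have hbands : ∑ j : {j // j ∈ J}, ∑ q, |plateau ((2:ℝ) ^ (j:ℤ)) (φ u) * T j (e u) q -
        plateau ((2:ℝ) ^ (j:ℤ)) (φ v) * T j (e v) q| ≤ 10 * ((4 + 2 * C) * L) := by
      rw [← Finset.sum_subset (Finset.subset_univ A) (fun j _ hj => ?_)]
      · refine (Finset.sum_le_card_nsmul A _ _ fun j _ => hterm j).trans ?_
        rw [nsmul_eq_mul]
        exact mul_le_mul_of_nonneg_right hA (by positivity)
      · simp only [A, Finset.mem_filter, Finset.mem_univ, true_and, not_or, not_not] at hj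
        simp [hj.1, hj.2]
    linarith
  · rw [hre, hsplit]
    set R := d u v with hR
    have hR0 : 0 ≤ R := pathDist_nonneg hℓ u v
    have hband : 0 ≤ 22 * ∑ j : {j // j ∈ J}, ∑ q,
        |plateau ((2:ℝ) ^ (j:ℤ)) (φ u) * T j (e u) q -
        plateau ((2:ℝ) ^ (j:ℤ)) (φ v) * T j (e v) q| := by positivity
    have hB0 : 0 ≤ ∑ c, |B u c - B v c| := by positivity
    by_cases hfar : R / 32 ≤ |φ u - φ v|
    · linarith
    rw [not_le, abs_lt] at hfar
    by_cases hnear : φ u ≤ R / 8 ∧ φ v ≤ R / 8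
    · obtain ⟨x, hx, ex⟩ := hφex u
      obtain ⟨y, hy, ey⟩ := hφex v
      have hBR : R ≤ ∑ c, |B u c - B v c| :=
        (hB u v).2 ⟨x, hx, ex ▸ hnear.1⟩ ⟨y, hy, ey ▸ hnear.2⟩
      linarith [abs_nonneg (φ u - φ v)]
    have hu : 3 * R / 32 ≤ φ u := by
      by_contra hc
      exact hnear ⟨by linarith, by linarith⟩
    have hRpos : 0 < R := by linarith
    have hv1 : φ u - R / 32 ≤ φ v := by linarith
    have hv2 : φ v ≤ φ u + R / 32 := by linarith
    set j := Int.log 2 (φ u) with hj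
    have hjJ : j ∈ J := Finset.mem_image_of_mem _ (Finset.mem_univ u)
    set Δ := (2:ℝ) ^ j with hΔ
    have hΔ0 : 0 < Δ := zpow_pos two_pos _
    have l1 : Δ ≤ φ u := by
      have := Int.zpow_log_le_self (b := 2) (by norm_num) (show 0 < φ u by linarith)
      push_cast at this; exact this
    have l2 : φ u < 2 * Δ := by
      have := Int.lt_zpow_succ_log_self (b := 2) (by norm_num) (φ u)
      push_cast at this
      rw [zpow_add_one₀ two_ne_zero] at this
      simp only [hΔ, hj]; linarith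
    have huX : u ∉ X := fun h => by linarith [hφ0 u h]
    have hvX : v ∉ X := fun h => by linarith [hφ0 v h]
    have hpu : plateau Δ (φ u) = 1 := plateau_eq_one hΔ0 (by linarith) (by linarith)
    have hpv : plateau Δ (φ v) = 1 := plateau_eq_one hΔ0 (by linarith) (by linarith)
    have hgain := ((hT j (e u)).2 (e v)).2
    rw [ht] at hgain
    set t := ∑ i, |g u i - g v i|
    have hRt : R ≤ t := hlow u ((Finset.mem_union.1 hu').resolve_right huX) v
      ((Finset.mem_union.1 hv').resolve_right hvX)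
    have hexp : 6 * R / 131 ≤ Δ * (1 - Real.exp (-(2 * t / Δ))) := by
      have h1 : Real.exp (-(2 * t / Δ)) ≤ Real.exp (-(2 * R / Δ)) := Real.exp_le_exp.2
        (neg_le_neg (div_le_div_of_nonneg_right (by linarith) hΔ0.le))
      have hpos : 0 < 2 * R / Δ + 1 := by positivity
      have h2 : Real.exp (-(2 * R / Δ)) ≤ Δ / (2 * R + Δ) := by
        rw [Real.exp_neg]
        refine (inv_anti₀ hpos (Real.add_one_le_exp _)).trans (le_of_eq ?_)
        field_simp
      have h3 : 6 * R / 131 ≤ Δ * (1 - Δ / (2 * R + Δ)) := by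
        rw [one_sub_div (by linarith), ← mul_div_assoc, div_le_div_iff₀ (by norm_num) (by linarith)]
        nlinarith
      exact h3.trans (mul_le_mul_of_nonneg_left (by linarith) hΔ0.le)
    have hone := Finset.single_le_sum (f := fun j : {j // j ∈ J} => ∑ q,
      |plateau ((2:ℝ) ^ (j:ℤ)) (φ u) * T j (e u) q - plateau ((2:ℝ) ^ (j:ℤ)) (φ v) * T j (e v) q|)
      (fun j _ => by positivity) (Finset.mem_univ ⟨j, hjJ⟩)
    simp only [← hΔ, hpu, hpv, one_mul] at hone
    linarith [abs_nonneg (φ u - φ v)]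

end Vale.Agent.P235
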