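import Vale.Agent.P235.Apex

/-!
Graphs of bounded block depth embed into `ℓ¹` with bounded distortion.
-/

namespace Vale.Agent.P235

open Finset

variable {V : Type*} [Fintype V] [DecidableEq V]

/-- `BlockDepth G k t U`: the part of `G` on `U` is built from single vertices by gluing along at
most one common vertex and by at most `t` nested rounds of adding at most `k` vertices with
arbitrary edges. -/
inductive BlockDepth (G : SimpleGraph V) (k : ℕ) : ℕ → Finset V → Prop
  | small (t : ℕ) {U : Finset V} : U.card ≤ 1 → BlockDepth G k t U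
  | glue {t : ℕ} {A B : Finset V} : (A ∩ B).card ≤ 1 →
      (∀ u ∈ A, ∀ v ∈ B, G.Adj u v → u ∈ B ∨ v ∈ A) →
      BlockDepth G k t A → BlockDepth G k t B → BlockDepth G k t (A ∪ B)
  | apex {t : ℕ} {U X : Finset V} : X.card ≤ k → BlockDepth G k t U →
      BlockDepth G k (t + 1) (U ∪ X)

variable {G : SimpleGraph V} {ℓ : Sym2 V → ℝ}

omit [Fintype V] [DecidableEq V] in
theorem Embeds.mono (hℓ : ∀ e ∈ G.edgeSet, 0 < ℓ e) {C C' : ℝ} {U : Finset V}
    (h : Embeds G ℓ C U) (hCC : C ≤ C') : Embeds G ℓ C' U := by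
  obtain ⟨N, g, hup, hlow⟩ := h
  exact ⟨N, g, fun u hu v hv huv => (hup u hu v hv huv).trans
    (mul_le_mul_of_nonneg_right hCC (hℓ _ huv).le), hlow⟩

omit [Fintype V] [DecidableEq V] in
theorem Embeds.ofType {α : Type*} [Fintype α] {C : ℝ} {U : Finset V} (F : V → α → ℝ)
    (hup : ∀ u ∈ U, ∀ v ∈ U, G.Adj u v → ∑ i, |F u i - F v i| ≤ C * ℓ s(u, v))
    (hlow : ∀ u ∈ U, ∀ v ∈ U, pathDist G ℓ u v ≤ ∑ i, |F u i - F v i|) : Embeds G ℓ C U := by
  have e : ∀ u v, ∑ i, |F u ((Fintype.equivFin α).symm i) - F v ((Fintype.equivFin α).symm i)| =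
      ∑ i, |F u i - F v i| :=
    fun u v => Fintype.sum_equiv (Fintype.equivFin α).symm _ _ fun _ => rfl
  exact ⟨_, fun u i => F u ((Fintype.equivFin α).symm i),
    fun u hu v hv huv => (e u v).trans_le (hup u hu v hv huv),
    fun u hu v hv => (hlow u hu v hv).trans_eq (e u v).symm⟩

/-- Gluing along at most one vertex costs nothing. -/
theorem Embeds.glue (hG : G.Connected) (hℓ : ∀ e ∈ G.edgeSet, 0 < ℓ e) {C : ℝ} {A B : Finset V}
    (hcard : (A ∩ B).card ≤ 1) (hedge : ∀ u ∈ A, ∀ v ∈ B, G.Adj u v → u ∈ B ∨ v ∈ A)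
    (hA : Embeds G ℓ C A) (hB : Embeds G ℓ C B) : Embeds G ℓ C (A ∪ B) := by
  obtain ⟨m, a, aup, alow⟩ := hA
  obtain ⟨n, b, bup, blow⟩ := hB
  have pairs : ∀ u ∈ A ∪ B, ∀ v ∈ A ∪ B, G.Adj u v → (u ∈ A ∧ v ∈ A) ∨ (u ∈ B ∧ v ∈ B) := by
    intro u hu v hv huv
    rcases Finset.mem_union.1 hu with hu | hu <;> rcases Finset.mem_union.1 hv with hv | hv
    · exact Or.inl ⟨hu, hv⟩
    · exact (hedge u hu v hv huv).elim (fun h => Or.inr ⟨h, hv⟩) (fun h => Or.inl ⟨hu, h⟩)
    · exact (hedge v hv u hu huv.symm).elim (fun h => Or.inr ⟨hu, h⟩) (fun h => Or.inl ⟨h, hv⟩)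
    · exact Or.inr ⟨hu, hv⟩
  by_cases hne : (A ∩ B).Nonempty
  · obtain ⟨c, hc⟩ := hne
    obtain ⟨hcA, hcB⟩ := Finset.mem_inter.1 hc
    have huniq : ∀ u ∈ A, u ∈ B → u = c := fun u h1 h2 =>
      Finset.card_le_one.1 hcard u (Finset.mem_inter.2 ⟨h1, h2⟩) c hc
    let pA : V → V := fun u => if u ∈ A then u else c
    let pB : V → V := fun u => if u ∈ B then u else c
    have hA' : ∀ u, u ∈ B → pA u = c := fun u hu => by
      simp only [pA]; split_ifs with h
      · exact huniq u h hu
      · rfl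
    have hB' : ∀ u, u ∈ A → pB u = c := fun u hu => by
      simp only [pB]; split_ifs with h
      · exact huniq u hu h
      · rfl
    refine Embeds.ofType (fun u => Sum.elim (a (pA u)) (b (pB u))) ?_ ?_
    · intro u hu v hv huv
      rw [Fintype.sum_sum_type]
      simp only [Sum.elim_inl, Sum.elim_inr]
      rcases pairs u hu v hv huv with ⟨h1, h2⟩ | ⟨h1, h2⟩
      · simpa [hB' u h1, hB' v h2, pA, h1, h2] using aup u h1 v h2 huv
      · simpa [hA' u h1, hA' v h2, pB, h1, h2] using bup u h1 v h2 huv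
    · intro u hu v hv
      rw [Fintype.sum_sum_type]
      simp only [Sum.elim_inl, Sum.elim_inr]
      rcases Finset.mem_union.1 hu with hu | hu <;> rcases Finset.mem_union.1 hv with hv | hv
      · simpa [hB' u hu, hB' v hv, pA, hu, hv] using alow u hu v hv
      · rw [show pA u = u from if_pos hu, hA' v hv, hB' u hu, show pB v = v from if_pos hv]
        exact (pathDist_triangle hG hℓ u v c).trans
          (add_le_add (alow u hu c hcA) (blow c hcB v hv))
      · rw [show pA v = v from if_pos hv, hA' u hu, hB' v hv, show pB u = u from if_pos hu,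
          add_comm]
        exact (pathDist_triangle hG hℓ u v c).trans
          (add_le_add (blow u hu c hcB) (alow c hcA v hv))
      · simpa [hA' u hu, hA' v hv, pB, hu, hv] using blow u hu v hv
  · have hdis : ∀ u ∈ A, u ∉ B := fun u h1 h2 => hne ⟨u, Finset.mem_inter.2 ⟨h1, h2⟩⟩
    set M := ∑ x, ∑ y, pathDist G ℓ x y
    have hM : ∀ x y, pathDist G ℓ x y ≤ M := fun x y =>
      (Finset.single_le_sum (fun z _ => pathDist_nonneg hℓ x z) (Finset.mem_univ y)).trans
        (Finset.single_le_sum (f := fun x => ∑ y, pathDist G ℓ x y)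
          (fun z _ => Finset.sum_nonneg fun w _ => pathDist_nonneg hℓ z w) (Finset.mem_univ x))
    refine Embeds.ofType (fun u => Sum.elim
      (Sum.elim (fun i => if u ∈ A then a u i else 0) (fun i => if u ∈ A then 0 else b u i))
      (fun _ : Unit => if u ∈ A then M else 0)) ?_ ?_
    · intro u hu v hv huv
      rw [Fintype.sum_sum_type, Fintype.sum_sum_type]
      rcases pairs u hu v hv huv with ⟨h1, h2⟩ | ⟨h1, h2⟩
      · simpa [h1, h2] using aup u h1 v h2 huv
      · have n1 : u ∉ A := fun h => hdis u h h1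
        have n2 : v ∉ A := fun h => hdis v h h2
        simpa [n1, n2] using bup u h1 v h2 huv
    · intro u hu v hv
      rw [Fintype.sum_sum_type, Fintype.sum_sum_type]
      by_cases h1 : u ∈ A <;> by_cases h2 : v ∈ A
      · simpa [h1, h2] using alow u h1 v h2
      · refine (hM u v).trans (le_add_of_nonneg_of_le (by positivity) ?_)
        simp [h1, h2, le_abs_self]
      · refine (hM u v).trans (le_add_of_nonneg_of_le (by positivity) ?_)
        simp [h1, h2, le_abs_self]
      · simpa [h1, h2] using blow u ((Finset.mem_union.1 hu).resolve_left h1)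
          v ((Finset.mem_union.1 hv).resolve_left h2)

/-- The distortion for block depth `t`. -/
noncomputable def depthBound (k : ℕ) : ℕ → ℝ
  | 0 => 0
  | t + 1 => 32 * Nat.log 2 k + 440 * depthBound k t + 944

theorem depthBound_nonneg (k t : ℕ) : 0 ≤ depthBound k t := by
  induction t with
  | zero => exact le_rfl
  | succ t ih => simp only [depthBound]; positivity

theorem depthBound_le (k t : ℕ) : depthBound k t ≤ ((Nat.log 2 k : ℝ) + 3) * 440 ^ t - (Nat.log 2 k + 3) := by
  induction t with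
  | zero => simp [depthBound]
  | succ t ih =>
    simp only [depthBound]
    rw [pow_succ]
    have : (0:ℝ) ≤ Nat.log 2 k := Nat.cast_nonneg _
    nlinarith

theorem BlockDepth.embeds (hG : G.Connected) (hℓ : ∀ e ∈ G.edgeSet, 0 < ℓ e) {k t : ℕ}
    {U : Finset V} (h : BlockDepth G k t U) : Embeds G ℓ (depthBound k t) U := by
  induction h with
  | @small t U hU =>
    refine ⟨0, fun _ => Fin.elim0, fun u hu v hv huv => ?_, fun u hu v hv => ?_⟩
    · exact absurd (Finset.card_le_one.1 hU u hu v hv) huv.ne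
    · rw [Finset.card_le_one.1 hU u hu v hv, pathDist_self hℓ v]; simp
  | glue hcard hedge _ _ iA iB => exact Embeds.glue hG hℓ hcard hedge iA iB
  | @apex t U X hX _ ih =>
    rcases X.eq_empty_or_nonempty with rfl | hne
    · rw [Finset.union_empty]
      refine ih.mono hℓ ?_
      simp only [depthBound]
      have : (0:ℝ) ≤ Nat.log 2 k := Nat.cast_nonneg _
      linarith [depthBound_nonneg k t]
    · refine (exists_apex_embedding G hG hℓ X U hne (depthBound_nonneg k t) ih).mono hℓ ?_
      simp only [depthBound]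
      have : (Nat.log 2 X.card : ℝ) ≤ Nat.log 2 k := by exact_mod_cast Nat.log_mono_right hX
      linarith

omit [DecidableEq V] in
theorem Embeds.distortion (hG : G.Connected) {C : ℝ} (hC : 0 ≤ C)
    (h : Embeds G ℓ C (univ : Finset V)) :
    ∃ (N : ℕ) (f : V → Fin N → ℝ), ∀ u v, pathDist G ℓ u v ≤ ∑ i, |f u i - f v i| ∧
      ∑ i, |f u i - f v i| ≤ C * pathDist G ℓ u v := by
  obtain ⟨N, f, hup, hlow⟩ := h
  exact ⟨N, f, fun u v => ⟨hlow u (Finset.mem_univ u) v (Finset.mem_univ v),
    le_pathDist hG f hC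
      (fun u v h => hup u (Finset.mem_univ u) v (Finset.mem_univ v) h) u v⟩⟩

end Vale.Agent.P235
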