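import Vale.Agent.P235.Decomp

/-!
Forests have block depth `1`, and a class of bounded block depth omits a complete graph.
-/

namespace Vale.Agent.P235

open Finset

variable {V : Type*} [Fintype V] [DecidableEq V] {G : SimpleGraph V}

omit [Fintype V] in
theorem BlockDepth.forest {k : ℕ} (hk : 1 ≤ k) {U : Finset V}
    (h : (G.induce (U : Set V)).IsAcyclic) : BlockDepth G k 1 U := by
  classical
  induction U using Finset.strongInduction with
  | _ U ih =>
    rcases U.eq_empty_or_nonempty with rfl | hne
    · exact .small 1 (by simp)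
    have : Nonempty {x // x ∈ (U : Set V)} := hne.to_subtype
    obtain ⟨x, y, p, hp, hmax⟩ :=
      SimpleGraph.Walk.exists_isPath_forall_isPath_length_le_length (G.induce (U : Set V))
    have huniq : ∀ w, (G.induce (U : Set V)).Adj x w → w = p.snd := by
      intro w hw
      refine h.eq_snd_of_adj_start hp hw ?_
      by_contra hns
      have := hmax _ _ (p.cons hw.symm) (hp.cons hns)
      simp at this
    have hxU : (x : V) ∈ U := x.2
    have hle : (U.filter fun w => G.Adj x w).card ≤ 1 := Finset.card_le_one.2 fun a ha b hb => by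
      rw [Finset.mem_filter] at ha hb
      exact congrArg Subtype.val
        ((huniq ⟨a, ha.1⟩ ha.2).trans (huniq ⟨b, hb.1⟩ hb.2).symm)
    have hrest := ih (U.erase x) (Finset.erase_ssubset hxU)
      (h.comap (G' := G.induce (U : Set V))
        ⟨fun v => ⟨v.1, Finset.mem_of_mem_erase v.2⟩, fun hab => hab⟩
        fun a b hab => Subtype.ext (congrArg Subtype.val hab :))
    have hend : BlockDepth G k 1 ({(x : V)} ∪ U.filter fun w => G.Adj x w) :=
      .apex (hle.trans hk) (.small 0 (le_of_eq (Finset.card_singleton _)))
    have hU : U = ({(x : V)} ∪ U.filter fun w => G.Adj x w) ∪ U.erase x := by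
      ext w
      simp only [Finset.mem_union, Finset.mem_singleton, Finset.mem_filter, Finset.mem_erase]
      constructor
      · intro hw
        by_cases e : w = x
        · exact Or.inl (Or.inl e)
        · exact Or.inr ⟨e, hw⟩
      · rintro ((rfl | ⟨hw, _⟩) | ⟨_, hw⟩) <;> assumption
    rw [hU]
    refine .glue ?_ ?_ hend hrest
    · refine le_trans (Finset.card_le_card fun w hw => ?_) hle
      simp only [Finset.mem_inter, Finset.mem_union, Finset.mem_singleton, Finset.mem_erase] at hw
      exact hw.1.resolve_left hw.2.1
    · intro u hu v hv huv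
      simp only [Finset.mem_union, Finset.mem_singleton, Finset.mem_filter,
        Finset.mem_erase] at hu hv ⊢
      rcases hu with rfl | ⟨huU, hxu⟩
      · exact Or.inr (Or.inr ⟨hv.2, huv⟩)
      · exact Or.inl ⟨fun e => G.irrefl (e ▸ hxu), huU⟩

omit [Fintype V] in
theorem BlockDepth.clique_le {k t : ℕ} {U : Finset V} (h : BlockDepth G k t U) (Q : Finset V)
    (hQ : G.IsClique (Q : Set V)) (hQU : Q ⊆ U) : Q.card ≤ k * t + 1 := by
  induction h generalizing Q with
  | small t hU => exact (Finset.card_le_card hQU).trans (hU.trans (Nat.le_add_left 1 _))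
  | @glue t A B _ hedge _ _ iA iB =>
    by_cases hA : Q ⊆ A
    · exact iA Q hQ hA
    refine iB Q hQ fun u hu => ?_
    obtain ⟨v, hv, hvA⟩ := Finset.not_subset.1 hA
    rcases Finset.mem_union.1 (hQU hu) with huA | huB
    · have hvB := (Finset.mem_union.1 (hQU hv)).resolve_left hvA
      exact (hedge u huA v hvB (hQ hu hv fun e => hvA (e ▸ huA))).resolve_right hvA
    · exact huB
  | @apex t U X hX _ ih =>
    have h1 := ih (Q \ X) (hQ.subset (by simp)) fun u hu => by
      rw [Finset.mem_sdiff] at hu
      exact (Finset.mem_union.1 (hQU hu.1)).resolve_right hu.2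
    have h2 : Q.card ≤ (Q \ X).card + X.card := Finset.card_le_card_sdiff_add_card
    rw [Nat.mul_succ]
    omega

end Vale.Agent.P235
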