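import Vale.Agent.P235.Decomp

/-!
Block depth does not increase in minors.
-/

namespace Vale.Agent.P235

open Finset

variable {V W : Type*} [DecidableEq V] [DecidableEq W]

/-- `H` is a minor of `G`: branch sets are disjoint, induce connected subgraphs, and every edge of
`H` is realised by an edge of `G` between the two branch sets. -/
def IsMinorOf (H : SimpleGraph W) (G : SimpleGraph V) : Prop :=
  ∃ B : W → Finset V, (∀ a, (G.induce (B a : Set V)).Connected) ∧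
    (∀ a b, a ≠ b → Disjoint (B a) (B b)) ∧
    ∀ a b, H.Adj a b → ∃ u ∈ B a, ∃ v ∈ B b, G.Adj u v

/-- `S` indexes branch sets inside `U`. -/
def Branched (G : SimpleGraph V) (H : SimpleGraph W) (U : Finset V) (S : Finset W)
    (B : W → Finset V) : Prop :=
  (∀ a ∈ S, (B a).Nonempty ∧ B a ⊆ U ∧ ∀ u ∈ B a, ∀ v ∈ B a,
    Relation.ReflTransGen (fun x y => G.Adj x y ∧ x ∈ B a ∧ y ∈ B a) u v) ∧
  (∀ a ∈ S, ∀ b ∈ S, a ≠ b → Disjoint (B a) (B b)) ∧
  ∀ a ∈ S, ∀ b ∈ S, H.Adj a b → ∃ u ∈ B a, ∃ v ∈ B b, G.Adj u v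

variable {G : SimpleGraph V} {H : SimpleGraph W}

theorem exists_mem_inter {A C : Finset V}
    (hedge : ∀ u ∈ A, ∀ v ∈ C, G.Adj u v → u ∈ C ∨ v ∈ A) {P : Finset V} (hP : P ⊆ A ∪ C)
    (hconn : ∀ u ∈ P, ∀ v ∈ P, Relation.ReflTransGen (fun x y => G.Adj x y ∧ x ∈ P ∧ y ∈ P) u v)
    {u v : V} (hu : u ∈ P) (huA : u ∈ A) (hv : v ∈ P) (hvC : v ∈ C) :
    ∃ c ∈ P, c ∈ A ∧ c ∈ C := by
  by_contra hno
  push Not at hno
  have key : ∀ w, Relation.ReflTransGen (fun x y => G.Adj x y ∧ x ∈ P ∧ y ∈ P) u w → w ∈ A := by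
    intro w hw
    induction hw with
    | refl => exact huA
    | @tail x y _ hxy ih =>
      rcases Finset.mem_union.1 (hP hxy.2.2) with h | h
      · exact h
      · exact (hedge x ih y h hxy.1).resolve_left (hno x hxy.2.1 ih)
  exact hno v hv (key v (hconn u hu v hv)) hvC

omit [DecidableEq W] in
theorem Branched.left {A C : Finset V} {S : Finset W} {B : W → Finset V}
    (hcard : (A ∩ C).card ≤ 1) (hedge : ∀ u ∈ A, ∀ v ∈ C, G.Adj u v → u ∈ C ∨ v ∈ A)
    (h : Branched G H (A ∪ C) S B) :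
    Branched G H A (S.filter fun a => (B a ∩ A).Nonempty) (fun a => B a ∩ A) := by
  have huniq : ∀ x ∈ A, x ∈ C → ∀ y ∈ A, y ∈ C → x = y := fun x h1 h2 y h3 h4 =>
    Finset.card_le_one.1 hcard x (Finset.mem_inter.2 ⟨h1, h2⟩) y (Finset.mem_inter.2 ⟨h3, h4⟩)
  have hout : ∀ a ∈ S, (B a ∩ A).Nonempty → ∀ z ∈ B a, z ∉ A → ∃ c ∈ B a, c ∈ A ∧ c ∈ C := by
    intro a ha hne z hz hzA
    obtain ⟨u, hu⟩ := hne
    rw [Finset.mem_inter] at hu
    exact exists_mem_inter hedge (h.1 a ha).2.1 (h.1 a ha).2.2 hu.1 hu.2 hz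
      ((Finset.mem_union.1 ((h.1 a ha).2.1 hz)).resolve_left hzA)
  refine ⟨fun a ha => ?_, fun a ha b hb hab => ?_, fun a ha b hb hab => ?_⟩
  · rw [Finset.mem_filter] at ha
    refine ⟨ha.2, Finset.inter_subset_right, fun u hu v hv => ?_⟩
    rw [Finset.mem_inter] at hu hv
    by_cases hsub : ∀ z ∈ B a, z ∈ A
    · simp only [Finset.inter_eq_left.2 hsub]
      exact (h.1 a ha.1).2.2 u hu.1 v hv.1
    push Not at hsub
    obtain ⟨z, hz, hzA⟩ := hsub
    obtain ⟨c, hc, hcA, hcC⟩ := hout a ha.1 ha.2 z hz hzA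
    let r : V → V := fun x => if x ∈ A then x else c
    have hr : ∀ x y, G.Adj x y ∧ x ∈ B a ∧ y ∈ B a → Relation.ReflTransGen
        (fun x y => G.Adj x y ∧ x ∈ B a ∩ A ∧ y ∈ B a ∩ A) (r x) (r y) := by
      intro x y ⟨hxy, hx, hy⟩
      by_cases hxA : x ∈ A <;> by_cases hyA : y ∈ A <;> simp only [r, hxA, hyA, if_true, if_false]
      · exact .single ⟨hxy, Finset.mem_inter.2 ⟨hx, hxA⟩, Finset.mem_inter.2 ⟨hy, hyA⟩⟩
      · have hyC := (Finset.mem_union.1 ((h.1 a ha.1).2.1 hy)).resolve_left hyA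
        rw [huniq x hxA ((hedge x hxA y hyC hxy).resolve_right hyA) c hcA hcC]
      · have hxC := (Finset.mem_union.1 ((h.1 a ha.1).2.1 hx)).resolve_left hxA
        rw [huniq y hyA ((hedge y hyA x hxC hxy.symm).resolve_right hxA) c hcA hcC]
      · exact .refl
    have := Relation.ReflTransGen.lift' r hr _ _ ((h.1 a ha.1).2.2 u hu.1 v hv.1)
    simpa [r, Function.onFun, hu.2, hv.2] using this
  · exact (h.2.1 a (Finset.mem_filter.1 ha).1 b (Finset.mem_filter.1 hb).1 hab).mono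
      Finset.inter_subset_left Finset.inter_subset_left
  · rw [Finset.mem_filter] at ha hb
    obtain ⟨u, hu, v, hv, huv⟩ := h.2.2 a ha.1 b hb.1 hab
    have hd := Finset.disjoint_left.1 (h.2.1 a ha.1 b hb.1 hab.ne)
    by_cases huA : u ∈ A
    · by_cases hvA : v ∈ A
      · exact ⟨u, Finset.mem_inter.2 ⟨hu, huA⟩, v, Finset.mem_inter.2 ⟨hv, hvA⟩, huv⟩
      obtain ⟨c, hc, hcA, hcC⟩ := hout b hb.1 hb.2 v hv hvA
      have hvC := (Finset.mem_union.1 ((h.1 b hb.1).2.1 hv)).resolve_left hvA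
      have e := huniq u huA ((hedge u huA v hvC huv).resolve_right hvA) c hcA hcC
      exact absurd hc (e ▸ hd hu)
    · obtain ⟨c, hc, hcA, hcC⟩ := hout a ha.1 ha.2 u hu huA
      by_cases hvA : v ∈ A
      · have huC := (Finset.mem_union.1 ((h.1 a ha.1).2.1 hu)).resolve_left huA
        have e := huniq v hvA ((hedge v hvA u huC huv.symm).resolve_right huA) c hcA hcC
        exact absurd (e ▸ hv) (hd hc)
      · obtain ⟨c', hc', hc'A, hc'C⟩ := hout b hb.1 hb.2 v hv hvA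
        exact absurd (huniq c' hc'A hc'C c hcA hcC ▸ hc') (hd hc)

theorem BlockDepth.branched {k t : ℕ} {U : Finset V} (h : BlockDepth G k t U) :
    ∀ (S : Finset W) (B : W → Finset V), Branched G H U S B → BlockDepth H k t S := by
  induction h with
  | @small t U hU =>
    intro S B hb
    refine .small t (Finset.card_le_one.2 fun a ha b hb' => ?_)
    by_contra hne
    obtain ⟨u, hu⟩ := (hb.1 a ha).1
    obtain ⟨v, hv⟩ := (hb.1 b hb').1
    have e := Finset.card_le_one.1 hU u ((hb.1 a ha).2.1 hu) v ((hb.1 b hb').2.1 hv)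
    exact Finset.disjoint_left.1 (hb.2.1 a ha b hb' hne) hu (e ▸ hv)
  | @glue t A C hcard hedge _ _ iA iC =>
    intro S B hb
    have hedge' : ∀ u ∈ C, ∀ v ∈ A, G.Adj u v → u ∈ A ∨ v ∈ C :=
      fun u hu v hv huv => (hedge v hv u hu huv.symm).symm
    set SA := S.filter fun a => (B a ∩ A).Nonempty with hSA
    set SC := S.filter fun a => (B a ∩ C).Nonempty with hSC
    have hS : S = SA ∪ SC := by
      ext a
      simp only [hSA, hSC, Finset.mem_union, Finset.mem_filter]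
      refine ⟨fun ha => ?_, fun h => h.elim (·.1) (·.1)⟩
      obtain ⟨u, hu⟩ := (hb.1 a ha).1
      rcases Finset.mem_union.1 ((hb.1 a ha).2.1 hu) with h | h
      · exact Or.inl ⟨ha, u, Finset.mem_inter.2 ⟨hu, h⟩⟩
      · exact Or.inr ⟨ha, u, Finset.mem_inter.2 ⟨hu, h⟩⟩
    rw [hS]
    refine .glue ?_ ?_ (iA SA _ (hb.left hcard hedge))
      (iC SC _ (Branched.left (Finset.inter_comm A C ▸ hcard) hedge' (Finset.union_comm A C ▸ hb)))
    · refine Finset.card_le_one.2 fun a ha b hb' => ?_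
      simp only [hSA, hSC, Finset.mem_inter, Finset.mem_filter] at ha hb'
      obtain ⟨⟨ha, u, hu⟩, -, v, hv⟩ := ha
      obtain ⟨⟨hb', u', hu'⟩, -, v', hv'⟩ := hb'
      rw [Finset.mem_inter] at hu hv hu' hv'
      obtain ⟨c, hc, hcA, hcC⟩ :=
        exists_mem_inter hedge (hb.1 a ha).2.1 (hb.1 a ha).2.2 hu.1 hu.2 hv.1 hv.2
      obtain ⟨c', hc', hc'A, hc'C⟩ :=
        exists_mem_inter hedge (hb.1 b hb').2.1 (hb.1 b hb').2.2 hu'.1 hu'.2 hv'.1 hv'.2
      have e := Finset.card_le_one.1 hcard c (Finset.mem_inter.2 ⟨hcA, hcC⟩) c'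
        (Finset.mem_inter.2 ⟨hc'A, hc'C⟩)
      by_contra hne
      exact Finset.disjoint_left.1 (hb.2.1 a ha b hb' hne) hc (e ▸ hc')
    · intro a ha b hb' hab
      simp only [hSA, hSC, Finset.mem_filter] at ha hb' ⊢
      obtain ⟨u, hu, v, hv, huv⟩ := hb.2.2 a ha.1 b hb'.1 hab
      rcases Finset.mem_union.1 ((hb.1 a ha.1).2.1 hu) with hu' | hu'
      · rcases Finset.mem_union.1 ((hb.1 b hb'.1).2.1 hv) with hv' | hv'
        · exact Or.inr ⟨hb'.1, v, Finset.mem_inter.2 ⟨hv, hv'⟩⟩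
        · rcases hedge u hu' v hv' huv with h | h
          · exact Or.inl ⟨ha.1, u, Finset.mem_inter.2 ⟨hu, h⟩⟩
          · exact Or.inr ⟨hb'.1, v, Finset.mem_inter.2 ⟨hv, h⟩⟩
      · exact Or.inl ⟨ha.1, u, Finset.mem_inter.2 ⟨hu, hu'⟩⟩
  | @apex t U X hX _ ih =>
    intro S B hb
    set SX := S.filter fun a => (B a ∩ X).Nonempty with hSX
    have hrest : Branched G H U (S \ SX) B := by
      refine ⟨fun a ha => ?_, fun a ha b hb' => hb.2.1 a (Finset.mem_sdiff.1 ha).1 b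
        (Finset.mem_sdiff.1 hb').1, fun a ha b hb' => hb.2.2 a (Finset.mem_sdiff.1 ha).1 b
        (Finset.mem_sdiff.1 hb').1⟩
      rw [Finset.mem_sdiff] at ha
      refine ⟨(hb.1 a ha.1).1, fun u hu => ?_, (hb.1 a ha.1).2.2⟩
      refine (Finset.mem_union.1 ((hb.1 a ha.1).2.1 hu)).resolve_right fun h => ha.2 ?_
      exact Finset.mem_filter.2 ⟨ha.1, u, Finset.mem_inter.2 ⟨hu, h⟩⟩
    have hcardX : SX.card ≤ X.card := by
      have hdis : (SX : Set W).PairwiseDisjoint fun a => B a ∩ X := fun a ha b hb' hne =>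
        (hb.2.1 a (Finset.mem_filter.1 ha).1 b (Finset.mem_filter.1 hb').1 hne).mono
          Finset.inter_subset_left Finset.inter_subset_left
      refine le_trans (le_trans ?_ (Finset.card_biUnion hdis).ge)
        (Finset.card_le_card (Finset.biUnion_subset.2 fun a _ => Finset.inter_subset_right))
      rw [Finset.card_eq_sum_ones]
      exact Finset.sum_le_sum fun a ha => Finset.card_pos.2 (Finset.mem_filter.1 ha).2
    rw [← Finset.sdiff_union_of_subset (Finset.filter_subset _ S : SX ⊆ S)]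
    exact .apex (hcardX.trans hX) (ih _ _ hrest)

/-- Minors inherit block depth. -/
theorem BlockDepth.minor [Fintype V] [Fintype W] {k t : ℕ}
    (h : BlockDepth G k t univ) (hHG : IsMinorOf H G) : BlockDepth H k t univ := by
  obtain ⟨B, hconn, hdis, hadj⟩ := hHG
  refine h.branched univ B ⟨fun a _ => ⟨?_, Finset.subset_univ _, fun u hu v hv => ?_⟩,
    fun a _ b _ => hdis a b, fun a _ b _ => hadj a b⟩
  · obtain ⟨⟨u, hu⟩⟩ := (hconn a).nonempty
    exact ⟨u, hu⟩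
  · have h := (SimpleGraph.reachable_iff_reflTransGen _ _).1
      ((hconn a).preconnected ⟨u, hu⟩ ⟨v, hv⟩)
    exact Relation.ReflTransGen.lift (p := fun x y => G.Adj x y ∧ x ∈ B a ∧ y ∈ B a) Subtype.val
      (fun x y hxy => ⟨hxy, x.2, y.2⟩) _ _ h

end Vale.Agent.P235
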