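import Mathlib

/-!
A bounded map with `L¹` distances comparable to `min t Δ`, `t` the distance in a cut cone.
-/

namespace Vale.Agent.P235

open Finset

/-- Weight of a random set of cuts. -/
noncomputable def cutProb {ι : Type*} [Fintype ι] (π : ι → ℝ) (Q : ι → Bool) : ℝ :=
  ∏ c, if Q c then π c else 1 - π c

/-- Sign of a point: product of `-1` over the selected cuts containing it. -/
noncomputable def cutSign {ι : Type*} [Fintype ι] (S : ι → Bool) (Q : ι → Bool) : ℝ :=
  ∏ c, if Q c && S c then -1 else 1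

variable {ι : Type*} [Fintype ι]

theorem abs_cutSign (S Q : ι → Bool) : |cutSign S Q| = 1 := by
  rw [cutSign, Finset.abs_prod]
  exact Finset.prod_eq_one fun c _ => by split_ifs <;> norm_num

theorem cutProb_nonneg {π : ι → ℝ} (h0 : ∀ c, 0 ≤ π c) (h1 : ∀ c, π c ≤ 1) (Q : ι → Bool) :
    0 ≤ cutProb π Q :=
  Finset.prod_nonneg fun c _ => by split_ifs <;> linarith [h0 c, h1 c]

theorem sum_cutProb [DecidableEq ι] (π : ι → ℝ) : ∑ Q : ι → Bool, cutProb π Q = 1 := by
  have h := Fintype.prod_sum (fun c (b : Bool) => if b then π c else 1 - π c)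
  simp only [Fintype.sum_bool, if_true, Bool.false_eq_true, if_false] at h
  simpa [cutProb] using h.symm

theorem abs_one_sub {x : ℝ} (h : |x| = 1) : |1 - x| = 1 - x := by
  refine abs_of_nonneg ?_
  linarith [le_abs_self x]

/-- The truncation. -/
theorem exists_truncation {V : Type*} [DecidableEq ι] (S : V → ι → Bool) (w : ι → ℝ)
    (hw : ∀ c, 0 ≤ w c) {Δ : ℝ} (hΔ : 0 < Δ) :
    ∃ T : V → (ι → Bool) → ℝ, ∀ u, (∑ Q, |T u Q| ≤ Δ) ∧ ∀ v,
      (∑ Q, |T u Q - T v Q| ≤ 2 * ∑ c, if S u c = S v c then 0 else w c) ∧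
      Δ * (1 - Real.exp (-(2 * (∑ c, if S u c = S v c then 0 else w c) / Δ))) ≤
        ∑ Q, |T u Q - T v Q| := by
  set π : ι → ℝ := fun c => (1 - Real.exp (-(2 * w c / Δ))) / 2 with hπ
  have hexp : ∀ c, Real.exp (-(2 * w c / Δ)) ≤ 1 := fun c =>
    Real.exp_le_one_iff.2 (neg_nonpos.2 (div_nonneg (by linarith [hw c]) hΔ.le))
  have h0 : ∀ c, 0 ≤ π c := fun c => by simp only [hπ]; linarith [hexp c]
  have h1 : ∀ c, π c ≤ 1 := fun c => by
    simp only [hπ]; linarith [Real.exp_pos (-(2 * w c / Δ))]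
  refine ⟨fun u Q => Δ * cutProb π Q * cutSign (S u) Q, fun u => ⟨?_, fun v => ?_⟩⟩
  · refine le_of_eq ?_
    calc ∑ Q, |Δ * cutProb π Q * cutSign (S u) Q| = ∑ Q, Δ * cutProb π Q := by
          refine Finset.sum_congr rfl fun Q _ => ?_
          rw [abs_mul, abs_cutSign, mul_one,
            abs_of_nonneg (mul_nonneg hΔ.le (cutProb_nonneg h0 h1 Q))]
      _ = Δ := by rw [← Finset.mul_sum, sum_cutProb, mul_one]
  · set t := ∑ c, if S u c = S v c then 0 else w c with ht
    have hmain : ∑ Q, |Δ * cutProb π Q * cutSign (S u) Q - Δ * cutProb π Q * cutSign (S v) Q| =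
        Δ * (1 - Real.exp (-(2 * t / Δ))) := by
      have e : ∀ Q, |Δ * cutProb π Q * cutSign (S u) Q - Δ * cutProb π Q * cutSign (S v) Q| =
          Δ * (cutProb π Q - cutProb π Q * (cutSign (S u) Q * cutSign (S v) Q)) := by
        intro Q
        have hx := abs_cutSign (S u) Q
        have hy := abs_cutSign (S v) Q
        have hxy : |cutSign (S u) Q * cutSign (S v) Q| = 1 := by rw [abs_mul, hx, hy, one_mul]
        rw [← mul_sub, abs_mul, abs_of_nonneg (mul_nonneg hΔ.le (cutProb_nonneg h0 h1 Q))]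
        have h2 : |cutSign (S u) Q - cutSign (S v) Q| =
            1 - cutSign (S u) Q * cutSign (S v) Q := by
          rw [← abs_one_sub hxy]
          have hu : cutSign (S u) Q * cutSign (S u) Q = 1 := by
            rw [← abs_mul_abs_self, hx, one_mul]
          calc |cutSign (S u) Q - cutSign (S v) Q|
              = |cutSign (S u) Q| * |cutSign (S u) Q - cutSign (S v) Q| := by rw [hx, one_mul]
            _ = _ := by rw [← abs_mul, mul_sub, hu]
        rw [h2]; ring
      rw [Finset.sum_congr rfl fun Q _ => e Q, ← Finset.mul_sum, Finset.sum_sub_distrib,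
        sum_cutProb]
      congr 2
      rw [show -(2 * t / Δ) = ∑ c, (if S u c = S v c then 0 else -(2 * w c / Δ)) by
        rw [ht, Finset.mul_sum, Finset.sum_div, ← Finset.sum_neg_distrib]
        exact Finset.sum_congr rfl fun c _ => by split_ifs <;> simp, Real.exp_sum]
      simp only [cutProb, cutSign, ← Finset.prod_mul_distrib]
      rw [← Fintype.prod_sum (fun c (b : Bool) => (if b then π c else 1 - π c) *
        ((if b && S u c then -1 else 1) * (if b && S v c then -1 else 1)))]
      refine Finset.prod_congr rfl fun c _ => ?_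
      cases hu : S u c <;> cases hv : S v c <;> simp [hπ] <;> ring
    refine ⟨?_, hmain.ge⟩
    rw [hmain]
    have h := Real.add_one_le_exp (-(2 * t / Δ))
    calc Δ * (1 - Real.exp (-(2 * t / Δ))) ≤ Δ * (2 * t / Δ) :=
          mul_le_mul_of_nonneg_left (by linarith) hΔ.le
      _ = 2 * t := by field_simp

/-- Every finite subset of `ℓ¹` is in the cut cone. -/
theorem exists_cuts {n N : ℕ} (g : Fin n → Fin N → ℝ) :
    ∃ (S : Fin n → Fin N × Fin n → Bool) (w : Fin N × Fin n → ℝ), (∀ c, 0 ≤ w c) ∧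
      ∀ u v, (∑ c, if S u c = S v c then 0 else w c) = ∑ i, |g u i - g v i| := by
  let σ : Fin N → Equiv.Perm (Fin n) := fun i => Tuple.sort (fun u => g u i)
  let b : Fin N → ℕ → ℝ := fun i k =>
    if h : k < n then g (σ i ⟨k, h⟩) i else 0
  let S : Fin n → Fin N × Fin n → Bool := fun u c => decide ((c.2 : ℕ) < ((σ c.1).symm u : ℕ))
  let w : Fin N × Fin n → ℝ := fun c =>
    if (c.2 : ℕ) + 1 < n then b c.1 ((c.2 : ℕ) + 1) - b c.1 c.2 else 0
  have hmono : ∀ i k l, k ≤ l → l < n → b i k ≤ b i l := by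
    intro i k l hkl hl
    simp only [b, dif_pos hl, dif_pos (lt_of_le_of_lt hkl hl)]
    exact Tuple.monotone_sort (fun u => g u i) (Fin.mk_le_mk.2 hkl)
  have hw : ∀ c, 0 ≤ w c := fun c => by
    simp only [w]
    split_ifs with h
    · exact sub_nonneg.2 (hmono _ _ _ (Nat.le_succ _) h)
    · exact le_rfl
  refine ⟨S, w, hw, fun u v => ?_⟩
  rw [Fintype.sum_prod_type]
  refine Finset.sum_congr rfl fun i _ => ?_
  wlog hle : ((σ i).symm u : ℕ) ≤ (σ i).symm v generalizing u v
  · rw [abs_sub_comm, ← this v u (le_of_lt (not_le.1 hle))]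
    exact Finset.sum_congr rfl fun k _ => if_congr eq_comm rfl rfl
  set p := ((σ i).symm u : ℕ) with hp
  set q := ((σ i).symm v : ℕ) with hq
  have hqn : q < n := ((σ i).symm v).2
  have hb : ∀ x : Fin n, g x i = b i ((σ i).symm x : ℕ) := fun x => by simp [b]
  rw [hb u, hb v, ← hp, ← hq, abs_sub_comm, abs_of_nonneg (sub_nonneg.2 (hmono i p q hle hqn)),
    ← Finset.sum_Ico_sub (b i) hle]
  calc ∑ k : Fin n, (if S u (i, k) = S v (i, k) then 0 else w (i, k))
      = ∑ k : Fin n, (fun k : ℕ => if k ∈ Finset.Ico p q then b i (k + 1) - b i k else 0) k := by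
        refine Finset.sum_congr rfl fun k _ => ?_
        simp only [S, w, ← hp, ← hq, decide_eq_decide, Finset.mem_Ico]
        split_ifs <;> first | rfl | omega
    _ = _ := by
        rw [Fin.sum_univ_eq_sum_range
          (fun k : ℕ => if k ∈ Finset.Ico p q then b i (k + 1) - b i k else 0) n,
          Finset.sum_ite_mem]
        refine Finset.sum_congr ?_ fun _ _ => rfl
        exact Finset.inter_eq_right.2 fun k hk => by
          rw [Finset.mem_Ico] at hk; exact Finset.mem_range.2 (by omega)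

end Vale.Agent.P235
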